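import Mathlib
import Vale.Agent.P078.Type3.Specs5

/-! The elementary pointwise facts of one channel of the trace-free walk. -/

noncomputable section

open scoped ComplexOrder

set_option linter.unusedSectionVars false

namespace Vale.Agent.P078.T3

open Chan
open TMasa (ypm vpm)

universe u v

variable {M : Type u} [CStarAlgebra M] [PartialOrder M] [StarOrderedRing M]
  {Ω : Type v} [TopologicalSpace Ω] [CompactSpace Ω] [T2Space Ω]

namespace SMasa

section General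

variable (T : SMasa M Ω) {γ : ℝ} {v Z N : M}

lemma pos_zero_or_one (g : C(Ω, ℝ)) (ω : Ω) : T.pos g ω = 0 ∨ T.pos g ω = 1 :=
  idem_zero_or_one (T.pos_mul_self g) ω

lemma nonneg_of_pos_one {g : C(Ω, ℝ)} {ω : Ω} (h : T.pos g ω = 1) : 0 ≤ g ω := by
  by_cases hm : ω ∈ TMasa.hull g
  · exact TMasa.nonneg_of_mem_hull hm
  · simp [pos_apply, hm] at h

lemma nonpos_of_pos_zero {g : C(Ω, ℝ)} {ω : Ω} (h : T.pos g ω = 0) : g ω ≤ 0 := by
  by_cases hm : ω ∈ TMasa.hull g
  · simp [pos_apply, hm] at h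
  · exact TMasa.nonpos_of_not_mem_hull hm

/-- the set where a function exceeds a threshold in absolute value has small mass -/
lemma tau_exceed_le (u : C(Ω, ℝ)) {t : ℝ} (ht : 0 < t) :
    t * T.tau (T.pos (cabs u - ContinuousMap.const Ω t)) ≤ T.tau (cabs u) := by
  have h : t • T.pos (cabs u - ContinuousMap.const Ω t) ≤ cabs u := by
    refine ContinuousMap.le_def.2 fun ω => ?_
    show t * T.pos (cabs u - ContinuousMap.const Ω t) ω ≤ |u ω|
    rcases T.pos_zero_or_one (cabs u - ContinuousMap.const Ω t) ω with h | h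
    · rw [h, mul_zero]; exact abs_nonneg _
    · have h' : 0 ≤ |u ω| - t := T.nonneg_of_pos_one h
      rw [h, mul_one]
      linarith
  have := T.tau_mono h
  rwa [map_smul, smul_eq_mul] at this

/-- Kadison–Schwarz for the expectation -/
lemma K_ge_mul_sq {X : M} (hX : IsSelfAdjoint X) {g : C(Ω, ℝ)} (hg : 0 ≤ g) (ω : Ω) :
    g ω * T.E X ω ^ 2 ≤ T.K X g ω := by
  have h := T.E_schwarz (T.emb (csqrt g) * X) 1 ω
  rw [star_mul, T.star_emb, hX.star_eq, mul_one, star_one, mul_one, T.E_one,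
    ContinuousMap.one_apply, mul_one, T.E_mul_emb] at h
  have e : X * T.emb (csqrt g) * (T.emb (csqrt g) * X) = X * T.emb g * X := by
    rw [mul_assoc X (T.emb (csqrt g)), ← mul_assoc (T.emb (csqrt g)), ← map_mul, csqrt_mul_self hg,
      mul_assoc]
  rw [e, ContinuousMap.mul_apply, mul_pow] at h
  rw [T.K_apply, hX.star_eq]
  refine le_trans (le_of_eq ?_) h
  rw [show csqrt g ω = Real.sqrt (g ω) from rfl, Real.sq_sqrt (show 0 ≤ g ω from hg ω)]

lemma E_XhXhX_nonneg {X : M} (hX : 0 ≤ X) (h : C(Ω, ℝ)) :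
    0 ≤ T.E (X * T.emb h * X * T.emb h * X) := by
  refine T.E_nonneg ?_
  have hs : IsSelfAdjoint X := IsSelfAdjoint.of_nonneg hX
  have := star_left_conjugate_nonneg hX (T.emb h * X)
  simpa only [star_mul, hs.star_eq, T.star_emb, mul_assoc] using this

/-- the banded part of the barrier -/
lemma E_band_le (hb : Band γ Z N) (hv : IsSelfAdjoint v) (ω : Ω) :
    T.E (v * Res.res Z * v) ω - T.E (Xp v Z N) ω ≤ 2 * γ * T.E (Bop v Z N) ω := by
  have h := T.E_mono (hv.conjugate_le_conjugate hb.GC_le) ω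
  have e : v * Res.res Z * v - Xp v Z N = v * (Res.res Z * (1 - N)) * v := by
    simp [Xp, mul_sub, sub_mul, mul_assoc]
  rw [mul_smul_comm, smul_mul_assoc, map_smul, ← e, map_sub] at h
  simpa [Bop] using h

end General

variable {T : SMasa M Ω} {P : Params} {x : M} {S : Smalls} {st : TSt M Ω P.r}
  {N : Fin P.r → Bool → M}

lemma E_ypm (hE : T.E x = 0) (s : Bool) (ω : Ω) : T.E (ypm x s) ω = 1 / 2 := by
  cases s <;> simp [ypm, T.E_one, hE]

namespace Ctx

variable (C : T.Ctx P x S st N)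
include C

lemma ε_pos : 0 < P.ε := C.ok.ε_pos

lemma ε_le : P.ε ≤ 1 / 16 := C.ok.ε_le

lemma γ_pos : 0 < S.γ := by
  by_cases h : Nonempty (Fin P.r)
  · exact (C.band (Classical.arbitrary _) true).pos
  · exact absurd ⟨⟨0, C.ok.r_pos⟩⟩ h

lemma sig0 (i : Fin P.r) (ω : Ω) : 0 ≤ st.sig i ω := C.inv.sig_nonneg i ω

lemma sig1 (i : Fin P.r) (ω : Ω) : st.sig i ω ≤ 1 - 2 * P.ε := C.inv.sig_le i ω

lemma half : P.ε ≤ 1 / 2 := by linarith [C.ε_le]

lemma β₀_pos : 0 < P.β₀ := by have := C.ε_pos; unfold Params.β₀; positivity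

lemma clip_sig (i : Fin P.r) (ω : Ω) : Two.clip P.ε (st.sig i ω) = st.sig i ω :=
  Two.clip_eq (C.sig0 i ω) (C.sig1 i ω)

lemma min_sig (i : Fin P.r) (ω : Ω) : min (st.sig i ω) 1 = st.sig i ω :=
  min_eq_left (by linarith [C.sig1 i ω, C.ε_pos])

lemma cpsi2_apply (i : Fin P.r) (ω : Ω) :
    cpsi2 P.ε (st.sig i) ω = Two.psi P.ε (st.sig i ω) := by
  simp [cpsi2, C.ε_pos, Two.psiC, C.min_sig]

lemma fval_apply (i : Fin P.r) (ω : Ω) :
    T.fval P x st i ω =
      Two.psi P.ε (st.sig i ω) - Two.phi (st.sig i ω) * T.Asum P x st i ω := by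
  rw [fval, ContinuousMap.sub_apply, ContinuousMap.mul_apply, C.cpsi2_apply]
  rfl

lemma cch_apply (i : Fin P.r) (ω : Ω) :
    T.cch P x st i ω =
      Two.dpsi P.ε (st.sig i ω) - Two.dphi (st.sig i ω) * T.Asum P x st i ω := by
  simp [cch, comp1_apply (Two.continuous_dpsiC C.ε_pos), comp1_apply Two.continuous_dphi,
    Two.dpsiC, C.min_sig]

lemma beta_apply (i : Fin P.r) (ω : Ω) :
    T.beta P x st i ω = T.Asum P x st i ω - Two.m₁Of P.ε (st.sig i ω) := by
  rw [beta, ContinuousMap.sub_apply, comp1_apply (Two.continuous_m₁Clip C.ε_pos C.half),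
    C.clip_sig]

lemma gam_apply (i : Fin P.r) (ω : Ω) :
    gam P st i ω = (max (st.sig i ω) (P.β₀ / 4))⁻¹ := by
  rw [gam, comp1_apply (Two.continuous_invMax (by linarith [C.β₀_pos]))]

lemma gam_nonneg (i : Fin P.r) : 0 ≤ gam P st i := fun ω => by
  show 0 ≤ gam P st i ω
  rw [C.gam_apply]
  exact inv_nonneg.2 (le_max_of_le_left (C.sig0 i ω))

lemma Xb_sa (i : Fin P.r) (s : Bool) : IsSelfAdjoint (T.Xb P x st N i s) :=
  (C.band i s).Xp_sa (TMasa.isSelfAdjoint_vpm x s)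

lemma Xb_nonneg (i : Fin P.r) (s : Bool) : 0 ≤ T.Xb P x st N i s :=
  (C.band i s).Xp_nonneg (TMasa.isSelfAdjoint_vpm x s)

lemma aval_nonneg (i : Fin P.r) (s : Bool) (ω : Ω) : 0 ≤ T.aval P x st i s ω :=
  T.E_nonneg ((TMasa.isSelfAdjoint_vpm x s).conjugate_nonneg
    (Res.res_nonneg C.γ_pos (C.inv.gap i s))) ω

lemma aval_ge (i : Fin P.r) (s : Bool) (ω : Ω) :
    T.E (T.Xb P x st N i s) ω ≤ T.aval P x st i s ω :=
  T.E_mono ((C.band i s).Xp_le (TMasa.isSelfAdjoint_vpm x s)) ω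

lemma band_le (i : Fin P.r) (s : Bool) (ω : Ω) :
    T.aval P x st i s ω - T.E (T.Xb P x st N i s) ω ≤
      2 * S.γ * T.E (Bop (vpm x s) (T.Zop P x st i s) (N i s)) ω :=
  T.E_band_le (C.band i s) (TMasa.isSelfAdjoint_vpm x s) ω

lemma Asum_nonneg (i : Fin P.r) (ω : Ω) : 0 ≤ T.Asum P x st i ω := by
  rw [Asum, ContinuousMap.add_apply]
  exact add_nonneg (C.aval_nonneg i true ω) (C.aval_nonneg i false ω)

/-- what is known at a channel which is switched on -/
lemma act_facts (i : Fin P.r) (ω : Ω) (hl : st.live ω = 1) (hσ : 0 < st.sig i ω) :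
    P.β₀ / 4 ≤ st.sig i ω ∧ 0 ≤ T.Asum P x st i ω ∧ T.Asum P x st i ω ≤ 1 / P.ε ∧
    |T.cch P x st i ω| ≤ P.Cc ∧ P.ε * P.β₀ ≤ cphi2 (st.sig i) ω ∧
    cphi2 (st.sig i) ω ≤ 1 / 2 := by
  have hε := C.ε_pos
  have hε1 := C.ε_le
  have hs0 := C.sig0 i ω
  have hs1 := C.sig1 i ω
  have hA0 := C.Asum_nonneg i ω
  have hf : P.β₀ ≤ T.fval P x st i ω := (C.clean i ω hl).resolve_left hσ.ne'
  rw [C.fval_apply] at hf
  obtain ⟨hφ0, hφ1, hdφ⟩ := Two.phi_bounds hε hs0 hs1
  have hψ := Two.psi_le hε hs0 hs1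
  have hb := C.β₀_pos
  have hφA : 0 ≤ Two.phi (st.sig i ω) * T.Asum P x st i ω := mul_nonneg hφ0 hA0
  set σ := st.sig i ω with hσd
  set a := T.Asum P x st i ω
  have hσb : P.β₀ / 4 ≤ σ := by linarith
  have hA1 : a ≤ 1 / P.ε := by
    rw [le_div_iff₀ hε]
    have h1 : σ * (2 * (1 - σ) * a) ≤ σ * 4 := by
      have : Two.phi σ * a = σ * (2 * (1 - σ) * a) := by rw [Two.phi]; ring
      linarith
    have h2 := le_of_mul_le_mul_left h1 hσ
    have h3 : a * (2 * P.ε) ≤ (1 - σ) * a := by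
      rw [mul_comm]; exact mul_le_mul_of_nonneg_right (by linarith) hA0
    linarith
  refine ⟨hσb, hA0, hA1, ?_, ?_, hφ1⟩
  · rw [C.cch_apply]
    refine (abs_sub _ _).trans ?_
    have h1 := Two.abs_dpsi_le hε hε1 hs0 hs1
    have h2 : |Two.dphi σ * a| ≤ 2 * (1 / P.ε) := by
      rw [abs_mul, abs_of_nonneg hA0]
      exact mul_le_mul hdφ hA1 hA0 (by norm_num)
    have h3 := Two.inv_pow_le hε hε1 (show 1 ≤ 6 by norm_num)
    rw [pow_one] at h3
    have h4 : 0 < 1 / P.ε ^ 6 := by positivity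
    rw [show 100 / P.ε ^ 6 = 100 * (1 / P.ε ^ 6) by ring] at h1
    rw [Params.Cc, show 200 / P.ε ^ 6 = 200 * (1 / P.ε ^ 6) by ring]
    linarith
  · show P.ε * P.β₀ ≤ Two.phi σ
    have h1 : P.β₀ / 4 * (2 * P.ε) ≤ σ * (1 - σ) :=
      mul_le_mul hσb (by linarith) (by positivity) hs0
    rw [Two.phi]
    linarith

lemma good_idem (i : Fin P.r) : T.good P x st N i * T.good P x st N i = T.good P x st N i := by
  have h : ∀ p : C(Ω, ℝ), p * p = p → (1 - p) * (1 - p) = 1 - p := fun p hp => by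
    rw [sub_mul, one_mul, mul_sub, mul_one, hp, sub_self, sub_zero]
  rw [good, mul_mul_mul_comm, h _ (T.pos_mul_self _), h _ (T.pos_mul_self _)]

lemma good_dist (i : Fin P.r) (ω : Ω) (hg : T.good P x st N i ω = 1) (s : Bool) :
    |T.ddv P x st N i s ω - 1 / 2| ≤ Two.tol P.ε := by
  have h : ∀ u : C(Ω, ℝ), T.pos (cabs u - ContinuousMap.const Ω (Two.tol P.ε)) ω = 0 →
      |u ω| ≤ Two.tol P.ε := fun u hu => by
    have h' : |u ω| - Two.tol P.ε ≤ 0 := T.nonpos_of_pos_zero hu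
    linarith
  set pt := T.pos (cabs (T.ddv P x st N i true - ContinuousMap.const Ω (1 / 2))
    - ContinuousMap.const Ω (Two.tol P.ε)) with hpt
  set pf := T.pos (cabs (T.ddv P x st N i false - ContinuousMap.const Ω (1 / 2))
    - ContinuousMap.const Ω (Two.tol P.ε)) with hpf
  rw [good, ← hpt, ← hpf, ContinuousMap.mul_apply, ContinuousMap.sub_apply,
    ContinuousMap.sub_apply, ContinuousMap.one_apply] at hg
  have ht : pt ω = 0 := by
    rcases T.pos_zero_or_one (cabs (T.ddv P x st N i true - ContinuousMap.const Ω (1 / 2))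
        - ContinuousMap.const Ω (Two.tol P.ε)) ω with h0 | h0 <;> rw [← hpt] at h0
    · exact h0
    · rw [h0] at hg; simp at hg
  have hf : pf ω = 0 := by
    rcases T.pos_zero_or_one (cabs (T.ddv P x st N i false - ContinuousMap.const Ω (1 / 2))
        - ContinuousMap.const Ω (Two.tol P.ε)) ω with h0 | h0 <;> rw [← hpf] at h0
    · exact h0
    · rw [h0] at hg; simp at hg
  cases s
  · exact h _ hf
  · exact h _ ht

end Ctx

variable (T P x)

theorem actSpec : T.ActSpec P x := fun _ _ _ C i ω hl hσ => C.act_facts i ω hl hσ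

end SMasa

end Vale.Agent.P078.T3
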