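import Mathlib
import Vale.Agent.P078.Type3.Point.Basic

/-! The mass of the band and of the sites outside the tolerance. -/

noncomputable section

open scoped ComplexOrder

set_option linter.unusedSectionVars false

namespace Vale.Agent.P078.T3

open Chan
open TMasa (ypm vpm)

universe u v

variable {M : Type u} [CStarAlgebra M] [PartialOrder M] [StarOrderedRing M]
  {Ω : Type v} [TopologicalSpace Ω] [CompactSpace Ω] [T2Space Ω]

namespace SMasa

variable {T : SMasa M Ω} {P : Params} {x : M} {S : Smalls} {st : TSt M Ω P.r}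
  {N : Fin P.r → Bool → M}

namespace Ctx

variable (C : T.Ctx P x S st N)
include C

lemma band_mass (i : Fin P.r) (s : Bool) :
    T.tr (vpm x s * (1 - N i s) * vpm x s) ≤ 2 * S.γ * T.tau (T.aval P x st i s) := by
  have hv := TMasa.isSelfAdjoint_vpm x s
  have hb := C.band i s
  have hG : Res.res (T.Zop P x st i s) * (1 - N i s) ≤ Res.res (T.Zop P x st i s) := by
    refine sub_nonneg.1 ?_
    rw [mul_sub, mul_one, sub_sub_cancel]
    exact hb.GN_nonneg
  have h := T.tr_mono (hv.conjugate_le_conjugate
    (hb.smul_C_le.trans (smul_le_smul_of_nonneg_left hG (by linarith [hb.pos]))))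
  rw [aval, T.tau_E]
  refine h.trans (le_of_eq ?_)
  rw [mul_smul_comm, smul_mul_assoc, map_smul, smul_eq_mul]

lemma bad_mass (i : Fin P.r) :
    Two.tol P.ε * T.tau (1 - T.good P x st N i) ≤ ∑ s : Bool,
      (T.tr (vpm x s * (1 - N i s) * vpm x s)
        + 8 * (T.n2 (st.R i s * vpm x s) + Real.sqrt (T.tr (vpm x s * (1 - N i s) * vpm x s)))) := by
  set t := Two.tol P.ε with ht
  have hε := C.ε_pos
  have ht0 : 0 < t := pow_pos hε 13
  set p : Bool → C(Ω, ℝ) := fun s =>
    T.pos (cabs (T.ddv P x st N i s - ContinuousMap.const Ω (1 / 2)) - ContinuousMap.const Ω t)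
  have hu : ∀ s, t * T.tau (p s) ≤ T.tr (vpm x s * (1 - N i s) * vpm x s)
      + 8 * (T.n2 (st.R i s * vpm x s)
        + Real.sqrt (T.tr (vpm x s * (1 - N i s) * vpm x s))) := by
    intro s
    refine (T.tau_exceed_le _ ht0).trans ?_
    obtain ⟨hv, hv1, hvv⟩ := TMasa.vpm_props C.sa C.norm_le s
    set v := vpm x s with hvdef
    set e := T.E (v * (N i s * st.R i s * N i s) * v) with he
    have hb := C.band i s
    have hC0 : 0 ≤ T.E (v * (1 - N i s) * v) :=
      T.E_nonneg (hv.conjugate_nonneg hb.proj.one_sub.nonneg)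
    have hz : 0 < (1 + P.ε) / 2 := by linarith
    have h : cabs (T.ddv P x st N i s - ContinuousMap.const Ω (1 / 2))
        ≤ T.E (v * (1 - N i s) * v) + (2 : ℝ) • cabs e := by
      refine ContinuousMap.le_def.2 fun ω => ?_
      show |T.ddv P x st N i s ω - 1 / 2| ≤ T.E (v * (1 - N i s) * v) ω + 2 * |e ω|
      have e1 : T.ddv P x st N i s ω - 1 / 2
          = -(T.E (v * (1 - N i s) * v) ω) - ((1 + P.ε) / 2)⁻¹ * e ω := by
        have h' : T.E (v * v) ω = 1 / 2 := by rw [hvv]; exact E_ypm C.centered s ω
        simp [ddv, mul_sub, sub_mul, he, v] at h' ⊢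
        linarith
      rw [e1]
      refine (abs_sub _ _).trans (add_le_add ?_ ?_)
      · rw [abs_neg, abs_of_nonneg (show 0 ≤ T.E (v * (1 - N i s) * v) ω from hC0 ω)]
      · rw [abs_mul, abs_of_pos (inv_pos.2 hz)]
        refine mul_le_mul_of_nonneg_right ?_ (abs_nonneg _)
        rw [inv_le_comm₀ hz two_pos]
        linarith
    refine (T.tau_mono h).trans ?_
    rw [map_add, map_smul, smul_eq_mul, T.tau_E]
    set σ : C(Ω, ℝ) := T.pos e - (1 - T.pos e) with hσ
    have hσe : σ * e = cabs e := by
      ext ω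
      show (T.pos e ω - (1 - T.pos e ω)) * e ω = |e ω|
      rcases T.pos_zero_or_one e ω with h | h
      · rw [h, abs_of_nonpos (T.nonpos_of_pos_zero h)]; ring
      · rw [h, abs_of_nonneg (T.nonneg_of_pos_one h)]; ring
    have hσ1 : ‖σ‖ ≤ 1 := (ContinuousMap.norm_le _ zero_le_one).2 fun ω => by
      rcases T.pos_zero_or_one e ω with h | h <;> simp [hσ, h]
    have hP2 : T.n2 ((1 - N i s) * v) = Real.sqrt (T.tr (v * (1 - N i s) * v)) := by
      rw [n2, ip, star_mul, hv.star_eq, hb.proj.one_sub.isSelfAdjoint.star_eq]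
      congr 2
      rw [show v * (1 - N i s) * ((1 - N i s) * v) = v * ((1 - N i s) * (1 - N i s)) * v by
        simp only [mul_assoc], hb.proj.one_sub.isIdempotentElem.eq]
    set PN := (1 : M) - N i s with hPN
    set sig := T.emb (st.sig i) with hsig
    -- the correction seen from the band
    have hNRP : N i s * st.R i s * PN = N i s * (v * sig * v) * PN := by
      have hNP : N i s * PN = 0 := by
        rw [hPN, mul_sub, mul_one, hb.proj.isIdempotentElem.eq, sub_self]
      have hZP : N i s * T.Zop P x st i s * PN = 0 := by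
        rw [hb.comm.eq, mul_assoc, hNP, mul_zero]
      have e : st.R i s
          = T.Zop P x st i s - ((1 + P.ε) / 2) • (1 : M) + v * sig * v := by
        rw [Zop, ← hvdef, ← hsig]; abel
      rw [e, mul_add, add_mul, mul_sub (N i s) (T.Zop P x st i s), sub_mul, hZP, mul_smul_comm, mul_one, smul_mul_assoc, hNP,
        smul_zero, sub_zero, zero_add]
    have hsig1 : ‖sig‖ ≤ 1 := by
      rw [hsig, T.emb_norm, ContinuousMap.norm_le _ zero_le_one]
      intro ω
      rw [Real.norm_eq_abs, abs_of_nonneg (C.sig0 i ω)]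
      linarith [C.sig1 i ω]
    have hN1 := proj_norm_le hb.proj
    have hX : T.n2 (N i s * st.R i s * N i s * v) ≤ T.n2 (st.R i s * v) + T.n2 (PN * v) := by
      have e : N i s * st.R i s * N i s * v
          = N i s * (st.R i s * v) + -(N i s * (v * sig * v) * (PN * v)) := by
        rw [show N i s * (v * sig * v) * (PN * v) = N i s * (v * sig * v) * PN * v from
          (mul_assoc _ _ _).symm, ← hNRP]
        simp only [hPN, mul_sub, sub_mul, mul_one, mul_assoc]
        abel
      rw [e]
      refine (T.n2_add _ _).trans (add_le_add ?_ ?_)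
      · exact (T.n2_mul_left _ _).trans (mul_le_of_le_one_left (T.n2_nonneg _) hN1)
      · rw [T.n2_neg]
        refine (T.n2_mul_left _ _).trans (mul_le_of_le_one_left (T.n2_nonneg _) ?_)
        refine (norm_mul_le _ _).trans (mul_le_one₀ hN1 (norm_nonneg _) ?_)
        exact (norm_sandwich_le hv1 _).trans hsig1
    have hcabs : T.tau (cabs e) ≤ T.n2 (st.R i s * v) + T.n2 (PN * v) := by
      have hNs : star (N i s) = N i s := hb.proj.isSelfAdjoint.star_eq
      have e2 : T.tau (σ * e) = T.ip (N i s * (v * T.emb σ)) (N i s * st.R i s * N i s * v) := by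
        rw [he, tau_mul_E, ip, star_mul, star_mul, T.star_emb, hv.star_eq, hNs]
        congr 1
        calc T.emb σ * (v * (N i s * st.R i s * N i s) * v)
            = T.emb σ * v * ((N i s * N i s) * st.R i s * N i s * v) := by
              rw [hb.proj.isIdempotentElem.eq]; simp only [mul_assoc]
          _ = _ := by simp only [mul_assoc]
      rw [← hσe, e2]
      refine (le_abs_self _).trans ((T.abs_ip_le _ _).trans ?_)
      refine le_trans (mul_le_of_le_one_left (T.n2_nonneg _) ((T.n2_le_norm _).trans ?_)) hX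
      refine (norm_mul_le _ _).trans (mul_le_one₀ hN1 (norm_nonneg _) ?_)
      refine (norm_mul_le _ _).trans (mul_le_one₀ hv1 (norm_nonneg _) ?_)
      rwa [T.emb_norm]
    have h8 := T.n2_nonneg (st.R i s * v)
    have h9 := T.n2_nonneg (PN * v)
    rw [← hP2]
    linarith
  have h : 1 - T.good P x st N i ≤ p true + p false := by
    refine ContinuousMap.le_def.2 fun ω => ?_
    show 1 - (1 - p true ω) * (1 - p false ω) ≤ p true ω + p false ω
    have h1 : 0 ≤ p true ω := idem_nonneg (T.pos_mul_self _) ω
    have h2 : 0 ≤ p false ω := idem_nonneg (T.pos_mul_self _) ω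
    nlinarith
  have h' := mul_le_mul_of_nonneg_left (T.tau_mono h) ht0.le
  rw [map_add] at h'
  rw [Fintype.sum_bool]
  linarith [hu true, hu false]

end Ctx

variable (T P x)

theorem badSpec : T.BadSpec P x := fun _ _ _ C i => ⟨fun s => C.band_mass i s, C.bad_mass i⟩

end SMasa

end Vale.Agent.P078.T3
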