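import Mathlib
import Vale.Agent.P078.Type3.Point.Basic

/-! The covariance weight of a channel: `√(κ sp / dens)`, and its bounds. -/

noncomputable section

open scoped ComplexOrder

set_option linter.unusedSectionVars false

namespace Vale.Agent.P078.Two

variable {ε x : ℝ}

/-- the size of the barrier profile against the weight at the base point -/
lemma phi_sq_e1_eq :
    phi x ^ 2 * e1Of ε x ^ 2
      = 4 * (1 + ε) ^ 2 * ((1 - x) * mOf ε x) ^ 2 * spOf ε x * spOf ε x := by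
  rw [phi, e1Of, spOf]
  ring

lemma one_sub_mul_mOf (hε : 0 < ε) (hx : x ≤ 1 - 2 * ε) :
    2 / 3 ≤ (1 - x) * mOf ε x ∧ (1 - x) * mOf ε x ≤ 1 := by
  have h : 0 < 1 + ε - x := by linarith
  rw [mOf, mul_one_div]
  exact ⟨by rw [le_div_iff₀ h]; linarith, by rw [div_le_one h]; linarith⟩

lemma f_eq (hε : 0 < ε) (hx : x ≤ 1 - 2 * ε) :
    psi ε x - phi x * (2 * mOf ε x) = spOf ε x + spOf ε x ^ 2 / 2 := by
  have hn : (1 + ε - x) ≠ 0 := by linarith
  rw [psi, phi, spOf, mOf]; field_simp; ring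

/-- the barrier profile against the weight is of the size of the profile -/
theorem weight_ge (hε : 0 < ε) (hx0 : 0 ≤ x) (hx : x ≤ 1 - 2 * ε) (B : ℝ) :
    3 * spOf ε x * spOf ε x ≤ phi x ^ 2 * dens ε x B := by
  have hsp := spOf_nonneg hε hx0 hx
  have hm := (one_sub_mul_mOf hε hx).1
  have e := phi_sq_e1_eq (ε := ε) (x := x)
  have h1 : 0 ≤ phi x ^ 2 * (ε * mOf ε x / (1 - x) * max B 0) :=
    mul_nonneg (sq_nonneg _) (mul_nonneg
      (div_nonneg (mul_nonneg hε.le (mOf_pos hε hx).le) (by linarith)) (le_max_right _ _))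
  have hQ : 4 / 9 ≤ ((1 - x) * mOf ε x) ^ 2 := by nlinarith
  have h2 : 4 * (4 / 9) * (spOf ε x * spOf ε x) ≤ phi x ^ 2 * e1Of ε x ^ 2 := by
    have h4 : (4 / 9 : ℝ) ≤ (1 + ε) ^ 2 * ((1 - x) * mOf ε x) ^ 2 :=
      hQ.trans (le_mul_of_one_le_left (sq_nonneg _) (one_le_pow₀ (by linarith)))
    rw [e]
    linarith [mul_le_mul_of_nonneg_right h4 (mul_nonneg hsp hsp)]
  have h3 : phi x ^ 2 * e1Of ε x ^ 2 * 2 ≤ phi x ^ 2 * e1Of ε x ^ 2 * (2 + 2 * spOf ε x) :=
    mul_le_mul_of_nonneg_left (by linarith) (by positivity)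
  unfold dens
  nlinarith [mul_nonneg hsp hsp]

/-- the weight is of the size of the squared profile, when the contribution is nonnegative -/
theorem weight_le (hε : 0 < ε) (hε1 : ε ≤ 1 / 16) (hx0 : 0 ≤ x) (hx : x ≤ 1 - 2 * ε) {τ A : ℝ}
    (hτ0 : 0 ≤ τ) (hτ : τ ≤ ε ^ 10) (hf : 0 ≤ psi ε x - phi x * A)
    (hA : 2 * (mOf ε x - τ) ≤ A) :
    phi x ^ 2 * dens ε x (A - 2 * (mOf ε x - τ)) ≤ 16 * spOf ε x * spOf ε x := by
  have hsp := spOf_nonneg hε hx0 hx
  have hsp3 := spOf_le_third hε hx0 hx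
  obtain ⟨hφ, hφ1, -⟩ := phi_bounds hε hx0 hx
  have hm := (one_sub_mul_mOf hε hx).2
  have hm0 : 0 ≤ (1 - x) * mOf ε x := mul_nonneg (by linarith) (mOf_pos hε hx).le
  have h5 := tau_small hε hε1 hτ
  have h8 : τ ≤ ε / 48 := h5.trans (by
    have : ε ^ 4 ≤ ε := pow_le_of_le_one hε.le (by linarith) (by norm_num)
    nlinarith)
  have h9 : phi x * (2 * τ) ≤ spOf ε x / 3 := by
    have a1 : phi x ≤ 2 * x := by unfold phi; nlinarith
    have a2 := le_spOf hε hε1 hx0 hx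
    have a3 : phi x * (2 * τ) ≤ 2 * x * (2 * τ) := mul_le_mul_of_nonneg_right a1 (by linarith)
    have a4 : x * τ ≤ x * (ε / 48) := mul_le_mul_of_nonneg_left h8 hx0
    linarith
  have hB : phi x * (A - 2 * (mOf ε x - τ)) ≤ 3 / 2 * spOf ε x := by
    have := f_eq hε hx
    nlinarith
  have e := phi_sq_e1_eq (ε := ε) (x := x)
  have h1 : phi x ^ 2 * e1Of ε x ^ 2 * (2 + 2 * spOf ε x) ≤ 13 * (spOf ε x * spOf ε x) := by
    rw [e]
    have q1 : (1 + ε) ^ 2 ≤ 289 / 256 := by nlinarith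
    have q2 : ((1 - x) * mOf ε x) ^ 2 ≤ 1 := pow_le_one₀ hm0 hm
    have q3 := mul_le_mul q1 q2 (sq_nonneg _) (by norm_num)
    have q4 : 4 * ((1 + ε) ^ 2 * ((1 - x) * mOf ε x) ^ 2) * (2 + 2 * spOf ε x) ≤ 13 := by
      have := mul_le_mul (mul_le_mul_of_nonneg_left q3 (show (0 : ℝ) ≤ 4 by norm_num))
        (show 2 + 2 * spOf ε x ≤ 8 / 3 by linarith) (by linarith) (by norm_num)
      linarith
    have := mul_le_mul_of_nonneg_right q4 (mul_nonneg hsp hsp)
    linarith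
  have h2 : phi x ^ 2 * (ε * mOf ε x / (1 - x) * (A - 2 * (mOf ε x - τ)))
      ≤ 3 * (spOf ε x * spOf ε x) := by
    have e2 : phi x * (ε * mOf ε x / (1 - x)) = 2 * spOf ε x := by
      have : (1 - x) ≠ 0 := by linarith
      rw [phi, spOf]; field_simp
    calc phi x ^ 2 * (ε * mOf ε x / (1 - x) * (A - 2 * (mOf ε x - τ)))
        = phi x * (ε * mOf ε x / (1 - x)) * (phi x * (A - 2 * (mOf ε x - τ))) := by ring
      _ ≤ 2 * spOf ε x * (3 / 2 * spOf ε x) := by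
          rw [e2]; exact mul_le_mul_of_nonneg_left hB (by linarith)
      _ = _ := by ring
  rw [dens, max_eq_left (by linarith)]
  linarith

end Vale.Agent.P078.Two
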