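import Mathlib
import Vale.Agent.P078.Type3.Point.Basic
import Vale.Agent.P078.Type3.Point.Weight
import Vale.Agent.P078.Type3.Point.Schwarz

/-! The pointwise gain and loss of one channel of the trace-free walk. -/

noncomputable section

open scoped ComplexOrder

set_option linter.unusedSectionVars false

namespace Vale.Agent.P078.T3

open Chan
open TMasa (ypm vpm)

universe u v

variable {M : Type u} [CStarAlgebra M] [PartialOrder M] [StarOrderedRing M]
  {Ω : Type v} [TopologicalSpace Ω] [CompactSpace Ω] [T2Space Ω]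

namespace SMasa

variable {T : SMasa M Ω} {P : Params} {x : M} {S : Smalls} {st : TSt M Ω P.r}
  {N : Fin P.r → Bool → M}

namespace Ctx

variable (C : T.Ctx P x S st N)
include C

lemma good_facts (i : Fin P.r) (ω : Ω) (hg : T.good P x st N i ω = 1) (hσ : 0 < st.sig i ω)
    (s : Bool) :
    0 < (1 + P.ε) / 2 - st.sig i ω * T.ddv P x st N i s ω ∧
      |T.ddv P x st N i s ω / ((1 + P.ε) / 2 - st.sig i ω * T.ddv P x st N i s ω)
          - Two.mOf P.ε (st.sig i ω)| ≤ P.ε ^ 10 ∧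
      Two.m₁Of P.ε (st.sig i ω) ≤ T.E (T.Xb P x st N i s) ω := by
  obtain ⟨h1, h2⟩ := Two.mdiff_le C.ε_pos C.ε_le (C.sig0 i ω) (C.sig1 i ω) (C.good_dist i ω hg s)
  refine ⟨h1, h2, le_trans ?_ (T.dd_div_le (C.band i s) (TMasa.isSelfAdjoint_vpm x s) rfl
    (by linarith [C.ε_pos]) (C.inv.sig_nonneg i) hσ h1)⟩
  rw [Two.m₁Of]
  simp only [ddv] at h2
  simp only [ddOf]
  linarith [(abs_le.1 h2).1]

/-- the offset is between a quarter and `1/ε` -/
lemma m₁_bounds (i : Fin P.r) (ω : Ω) :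
    1 / 4 ≤ Two.m₁Of P.ε (st.sig i ω) ∧ Two.m₁Of P.ε (st.sig i ω) ≤ 1 / P.ε := by
  have hε := C.ε_pos
  have hm1 := Two.half_le_mOf hε C.ε_le (C.sig0 i ω) (C.sig1 i ω)
  have hm2 := Two.mOf_le hε (C.sig1 i ω)
  have h10 : P.ε ^ 10 ≤ 1 / 4 := (pow_le_of_le_one hε.le (by linarith [C.ε_le]) (by norm_num)).trans
    (by linarith [C.ε_le])
  have h3 : 1 / (3 * P.ε) ≤ 1 / P.ε := one_div_le_one_div_of_le hε (by linarith)
  have := pow_pos hε 10
  rw [Two.m₁Of]
  constructor <;> linarith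

lemma Asum_ge (i : Fin P.r) (ω : Ω) :
    T.E (T.Xb P x st N i true) ω + T.E (T.Xb P x st N i false) ω ≤ T.Asum P x st i ω := by
  rw [Asum, ContinuousMap.add_apply]
  exact add_le_add (C.aval_ge i true ω) (C.aval_ge i false ω)

/-- the covariance is dominated by the drift -/
lemma beta_dom (i : Fin P.r) {D : C(Ω, ℝ)} (hD : ∀ ω, 0 ≤ D ω)
    (hD1 : ∀ ω, D ω ≠ 0 → T.ActGood P x st N i ω) (s : Bool) (ω : Ω) :
    D ω * T.E (T.Xb P x st N i s) ω ≤ D ω * T.beta P x st i ω := by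
  by_cases h : D ω = 0
  · simp [h]
  obtain ⟨-, hσ, hg⟩ := hD1 ω h
  refine mul_le_mul_of_nonneg_left ?_ (hD ω)
  rw [C.beta_apply]
  have h1 := (C.good_facts i ω hg hσ true).2.2
  have h2 := (C.good_facts i ω hg hσ false).2.2
  have h3 := C.Asum_ge i ω
  obtain ⟨hm, -⟩ := C.m₁_bounds i ω
  cases s <;> linarith

/-- a good active channel keeps its profile away from zero -/
lemma sp_facts (i : Fin P.r) (ω : Ω) (hl : st.live ω = 1) (hσ : 0 < st.sig i ω)
    (hg : T.good P x st N i ω = 1) :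
    spX P st i ω = Two.spOf P.ε (st.sig i ω) ∧ P.β₀ * (2 / 3) ≤ Two.spOf P.ε (st.sig i ω) ∧
      T.fval P x st i ω ≤ 3 / 2 * Two.spOf P.ε (st.sig i ω) ∧
      T.dnF P x st i ω = Two.dens P.ε (st.sig i ω)
        (T.Asum P x st i ω - 2 * Two.m₁Of P.ε (st.sig i ω)) := by
  have hε := C.ε_pos
  have hf : P.β₀ ≤ T.fval P x st i ω := (C.clean i ω hl).resolve_left hσ.ne'
  have h1 := (C.good_facts i ω hg hσ true).2.2
  have h2 := (C.good_facts i ω hg hσ false).2.2
  have h3 := C.Asum_ge i ω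
  have hle := Two.f_le hε C.ε_le (C.sig0 i ω) (C.sig1 i ω) (pow_nonneg hε.le 10) le_rfl h1 h2
  have hφ := (Two.phi_bounds hε (C.sig0 i ω) (C.sig1 i ω)).1
  have hA := mul_le_mul_of_nonneg_left h3 hφ
  rw [C.fval_apply] at hf ⊢
  have hb := C.β₀_pos
  refine ⟨?_, by linarith, by linarith, by rw [dnF_apply C.ok, C.clip_sig]⟩
  rw [spX_apply C.ok, C.clip_sig, max_eq_left (by linarith)]

lemma Jch_apply (i : Fin P.r) (g : C(Ω, ℝ)) (ω : Ω) :
    T.Jch P x st N i g ω = T.cch P x st i ω * g ω - Two.phi (st.sig i ω)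
      * (T.K (T.Xb P x st N i true) g ω + T.K (T.Xb P x st N i false) g ω) := by
  simp [Jch, Kch, cphi2]

lemma Fq_apply (i : Fin P.r) (h : C(Ω, ℝ)) (ω : Ω) :
    T.Fq P x st N i h ω =
      (Two.hpsi P.ε (st.sig i ω) + 2 * T.Asum P x st i ω) * h ω ^ 2
        - Two.dphi (st.sig i ω) * h ω
          * (T.K (T.Xb P x st N i true) h ω + T.K (T.Xb P x st N i false) h ω)
        - Two.phi (st.sig i ω)
          * (T.E (T.Xb P x st N i true * T.emb h * T.Xb P x st N i true * T.emb h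
              * T.Xb P x st N i true) ω
            + T.E (T.Xb P x st N i false * T.emb h * T.Xb P x st N i false * T.emb h
              * T.Xb P x st N i false) ω) := by
  simp [Fq, Kch, Cch, cphi2, comp1_apply (Two.continuous_hpsiC C.ε_pos),
    comp1_apply Two.continuous_dphi, Two.hpsiC, C.min_sig]
  ring

/-- the pointwise bound on the second order loss -/
theorem loss_le (i : Fin P.r) (h : C(Ω, ℝ)) (hsupp : ∀ ω, h ω ≠ 0 → T.ActGood P x st N i ω)
    (ω : Ω) :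
    T.Jch P x st N i (gam P st i * (h * h)) ω + T.Fq P x st N i h ω
      ≤ T.lcF P x st i ω * h ω ^ 2 := by
  have hgam : ∀ ω, h ω ≠ 0 → gam P st i ω = (st.sig i ω)⁻¹ ∧ 0 < st.sig i ω := fun ω hne => by
    obtain ⟨hl, hσ, -⟩ := hsupp ω hne
    refine ⟨?_, hσ⟩
    rw [C.gam_apply, max_eq_left (C.act_facts i ω hl hσ).1]
  have hw : h = st.sig i * (gam P st i * h) ∧
      gam P st i * (h * h) = st.sig i * ((gam P st i * h) * (gam P st i * h)) := by
    constructor <;> ext ω <;> by_cases h0 : h ω = 0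
    · simp [h0]
    · obtain ⟨e, hσ⟩ := hgam ω h0
      simp [e, hσ.ne']
    · simp [h0]
    · obtain ⟨e, hσ⟩ := hgam ω h0
      simp [e]; field_simp
  have hγh : 0 ≤ gam P st i * (h * h) := fun ω =>
    mul_nonneg (C.gam_nonneg i ω) (mul_self_nonneg (h ω))
  have hphi := (Two.phi_bounds C.ε_pos (C.sig0 i ω) (C.sig1 i ω)).1
  have hKn : ∀ s, (0 : ℝ) ≤ T.K (T.Xb P x st N i s) (gam P st i * (h * h)) ω := fun s =>
    T.K_nonneg _ hγh ω
  have hCn : ∀ s, (0 : ℝ) ≤ T.E (T.Xb P x st N i s * T.emb h * T.Xb P x st N i s * T.emb h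
      * T.Xb P x st N i s) ω := fun s => T.E_XhXhX_nonneg (C.Xb_nonneg i s) h ω
  rw [C.Jch_apply, C.Fq_apply, ContinuousMap.mul_apply, ContinuousMap.mul_apply]
  by_cases h0 : h ω = 0
  · rw [h0]
    have k1 := mul_nonneg hphi (add_nonneg (hKn true) (hKn false))
    have k2 := mul_nonneg hphi (add_nonneg (hCn true) (hCn false))
    linarith
  obtain ⟨hl, hσ, hg⟩ := hsupp ω h0
  have hε := C.ε_pos
  have hε1 := C.ε_le
  have hσ1 := C.sig1 i ω
  have hφpos : 0 < Two.phi (st.sig i ω) :=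
    mul_pos (by linarith) (by linarith)
  have hch : ∀ s, -Two.dphi (st.sig i ω) * h ω * T.K (T.Xb P x st N i s) h ω
      - Two.phi (st.sig i ω) * (T.K (T.Xb P x st N i s) (gam P st i * (h * h)) ω
        + T.E (T.Xb P x st N i s * T.emb h * T.Xb P x st N i s * T.emb h
          * T.Xb P x st N i s) ω)
      ≤ h ω ^ 2 * Two.lossS (st.sig i ω) (T.E (T.Xb P x st N i s) ω)
          (T.ddv P x st N i s ω / ((1 + P.ε) / 2 - st.sig i ω * T.ddv P x st N i s ω)) := fun s => by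
    rw [hw.2]
    exact T.chan_loss (C.band i s) (TMasa.isSelfAdjoint_vpm x s) rfl (by linarith)
      (C.inv.sig_nonneg i) hσ (C.good_facts i ω hg hσ s).1 hw.1 hφpos _
  obtain ⟨-, mp, ap⟩ := C.good_facts i ω hg hσ true
  obtain ⟨-, mn, an⟩ := C.good_facts i ω hg hσ false
  have hA := C.Asum_ge i ω
  have hX := Two.loss hε hε1 hσ hσ1 (pow_nonneg hε.le 10) le_rfl ap an hA mp mn
  rw [show Two.mOf P.ε (st.sig i ω) - P.ε ^ 10 = Two.m₁Of P.ε (st.sig i ω) from rfl] at hX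
  obtain ⟨hσb, hA0, hA1, -, -, -⟩ := C.act_facts i ω hl hσ
  obtain ⟨hm0, -⟩ := C.m₁_bounds i ω
  have hsp := Two.le_spOf hε hε1 (C.sig0 i ω) hσ1
  rw [C.cch_apply, (hgam ω h0).1]
  set σ := st.sig i ω with hσd
  set X := (Two.dpsi P.ε σ - Two.dphi σ * T.Asum P x st i ω) / σ + Two.hpsi P.ε σ
    + 2 * T.Asum P x st i ω + Two.lossS σ (T.E (T.Xb P x st N i true) ω)
      (T.ddv P x st N i true ω / ((1 + P.ε) / 2 - σ * T.ddv P x st N i true ω))
    + Two.lossS σ (T.E (T.Xb P x st N i false) ω)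
      (T.ddv P x st N i false ω / ((1 + P.ε) / 2 - σ * T.ddv P x st N i false ω)) with hXd
  have hB0 : 0 ≤ T.Asum P x st i ω - 2 * Two.m₁Of P.ε σ := by linarith
  have hXle : X ≤ T.lcF P x st i ω := by
    obtain ⟨e1, e2, -, e4⟩ := C.sp_facts i ω hl hσ hg
    rw [← hσd] at e1 e2 e4
    rw [lcF_apply C.ok, le_div_iff₀ (spX_bounds C.ok i ω).1, e1, e4, mul_comm]
    exact hX
  have hh : 0 ≤ h ω ^ 2 := sq_nonneg _
  refine le_trans ?_ (le_of_le_of_eq (mul_le_mul_of_nonneg_left hXle hh) (mul_comm _ _))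
  have e : h ω ^ 2 * X = h ω ^ 2 * ((Two.dpsi P.ε σ - Two.dphi σ * T.Asum P x st i ω) / σ)
      + (Two.hpsi P.ε σ + 2 * T.Asum P x st i ω) * h ω ^ 2
      + h ω ^ 2 * Two.lossS σ (T.E (T.Xb P x st N i true) ω)
        (T.ddv P x st N i true ω / ((1 + P.ε) / 2 - σ * T.ddv P x st N i true ω))
      + h ω ^ 2 * Two.lossS σ (T.E (T.Xb P x st N i false) ω)
        (T.ddv P x st N i false ω / ((1 + P.ε) / 2 - σ * T.ddv P x st N i false ω)) := by
    rw [hXd]; ring
  have e2 : (Two.dpsi P.ε σ - Two.dphi σ * T.Asum P x st i ω) * (σ⁻¹ * (h ω * h ω))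
      = h ω ^ 2 * ((Two.dpsi P.ε σ - Two.dphi σ * T.Asum P x st i ω) / σ) := by ring
  have h1 := hch true
  have h2 := hch false
  rw [e, e2]
  linarith

/-- the gain at full covariance -/
theorem gain_ge (i : Fin P.r) {D : C(Ω, ℝ)} (hD : ∀ ω, 0 ≤ D ω ∧ D ω ≤ 1)
    (hD1 : ∀ ω, D ω ≠ 0 → T.ActGood P x st N i ω) (ω : Ω) :
    D ω * T.dnF P x st i ω / 12 ≤ T.gainFun P x st N (P.rho S.γ) i D ω := by
  set ρ := P.rho S.γ with hρ
  set a' : Bool → C(Ω, ℝ) := fun s => T.E (T.Xb P x st N i s) with ha'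
  have hJ : gam P st i * D - (T.beta P x st i + gam P st i) * D = -(T.beta P x st i * D) := by
    ring
  have hdom : ∀ s, 0 ≤ (T.beta P x st i - a' s) * D := fun s ω => by
    show 0 ≤ (T.beta P x st i ω - T.E (T.Xb P x st N i s) ω) * D ω
    have := C.beta_dom i (fun y => (hD y).1) hD1 s ω
    linarith
  have hK : ∀ s, a' s ω ^ 2 * ((T.beta P x st i ω - a' s ω) * D ω)
      ≤ T.K (T.Xb P x st N i s) (T.beta P x st i * D) ω
        - T.K (T.Xb P x st N i s) (D * a' s) ω := fun s => by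
    have h := T.K_ge_mul_sq (C.Xb_sa i s) (hdom s) ω
    rw [sub_mul, map_sub, ContinuousMap.sub_apply, mul_comm (a' s) D,
      ContinuousMap.sub_apply, ContinuousMap.mul_apply, ContinuousMap.mul_apply] at h
    refine le_trans (le_of_eq ?_) h
    simp only [ha']
    ring
  have hε := C.ε_pos
  have hε1 := C.ε_le
  have hγ := C.γ_pos
  obtain ⟨hφ, -, -⟩ := Two.phi_bounds hε (C.sig0 i ω) (C.sig1 i ω)
  have hρ0 : 0 ≤ ρ := by rw [hρ, Params.rho]; positivity
  have hB : ∀ s, (0 : ℝ) ≤ T.E (Bop (vpm x s) (T.Zop P x st i s) (N i s)) ω := fun s =>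
    T.E_nonneg ((C.band i s).Bop_nonneg (TMasa.isSelfAdjoint_vpm x s)) ω
  have hsum := add_le_add (mul_le_mul_of_nonneg_left (hK true) hφ)
    (mul_le_mul_of_nonneg_left (hK false) hφ)
  have e : T.gainFun P x st N ρ i D ω =
      (Two.hpsi P.ε (st.sig i ω) + 2 * T.Asum P x st i ω) * D ω
      - Two.dphi (st.sig i ω) * (D ω * (a' true ω * a' true ω + a' false ω * a' false ω))
      - Two.phi (st.sig i ω) * (T.K (T.Xb P x st N i true) (D * a' true) ω
          + T.K (T.Xb P x st N i false) (D * a' false) ω)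
      - ((Two.dpsi P.ε (st.sig i ω) - Two.dphi (st.sig i ω) * T.Asum P x st i ω)
          * (T.beta P x st i ω * D ω)
        - Two.phi (st.sig i ω) * (T.K (T.Xb P x st N i true) (T.beta P x st i * D) ω
          + T.K (T.Xb P x st N i false) (T.beta P x st i * D) ω))
      + ρ * (Two.phi (st.sig i ω)
        * (T.E (Bop (vpm x true) (T.Zop P x st i true) (N i true)) ω
          + T.E (Bop (vpm x false) (T.Zop P x st i false) (N i false)) ω)) := by
    simp only [gainFun, hJ, ContinuousMap.add_apply, ContinuousMap.sub_apply,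
      ContinuousMap.mul_apply, ContinuousMap.smul_apply, smul_eq_mul, C.Jch_apply,
      map_neg, ContinuousMap.neg_apply, C.cch_apply, cphi2, ContinuousMap.coe_mk,
      comp1_apply (Two.continuous_hpsiC hε), comp1_apply Two.continuous_dphi, Two.hpsiC,
      C.min_sig, Bch, ha']
    ring
  rw [e]
  by_cases h0 : D ω = 0
  · rw [h0] at hsum ⊢
    have := mul_nonneg hρ0 (mul_nonneg hφ (add_nonneg (hB true) (hB false)))
    linarith
  obtain ⟨hl, hσ, hg⟩ := hD1 ω h0
  obtain ⟨-, -, hA1, -, hφlow, -⟩ := C.act_facts i ω hl hσ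
  change P.ε * P.β₀ ≤ Two.phi (st.sig i ω) at hφlow
  obtain ⟨hm0, -⟩ := C.m₁_bounds i ω
  have hgain := Two.gain hε hε1 (C.sig0 i ω) (C.sig1 i ω) (pow_nonneg hε.le 10) le_rfl
    (A := T.Asum P x st i ω) (C.good_facts i ω hg hσ true).2.2
    (C.good_facts i ω hg hσ false).2.2 (C.Asum_ge i ω)
  rw [show Two.mOf P.ε (st.sig i ω) - P.ε ^ 10 = Two.m₁Of P.ε (st.sig i ω) from rfl,
    ← C.beta_apply] at hgain
  have hdens := Two.dens_ge hε hε1 (C.sig0 i ω) (C.sig1 i ω)
    (T.Asum P x st i ω - 2 * Two.m₁Of P.ε (st.sig i ω))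
  set B := T.Asum P x st i ω - 2 * Two.m₁Of P.ε (st.sig i ω) with hBdef
  have hB0 : 0 ≤ B := by
    rw [hBdef]
    linarith [(C.good_facts i ω hg hσ true).2.2, (C.good_facts i ω hg hσ false).2.2,
      C.Asum_ge i ω]
  set δ := T.Asum P x st i ω - a' true ω - a' false ω with hδ
  have hδ0 : 0 ≤ δ := by simp only [hδ, ha']; linarith [C.Asum_ge i ω]
  set Bs := T.E (Bop (vpm x true) (T.Zop P x st i true) (N i true)) ω
      + T.E (Bop (vpm x false) (T.Zop P x st i false) (N i false)) ω with hBs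
  have hδb : δ ≤ 2 * S.γ * Bs := by
    simp only [hδ, hBs, ha', Asum, ContinuousMap.add_apply]
    linarith [C.band_le i true ω, C.band_le i false ω]
  have hBs0 : 0 ≤ Bs := add_nonneg (hB true) (hB false)
  -- the band term
  have hband : 100 / P.ε ^ 6 * (1 + B) * δ ≤ ρ * (Two.phi (st.sig i ω) * Bs) := by
    have h2 : 1 + B ≤ 2 / P.ε := by
      have : (1 : ℝ) ≤ 1 / P.ε := by rw [le_div_iff₀ hε]; linarith
      rw [show (2 : ℝ) / P.ε = 2 * (1 / P.ε) by ring, hBdef]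
      linarith
    calc 100 / P.ε ^ 6 * (1 + B) * δ
        ≤ 100 / P.ε ^ 6 * (2 / P.ε) * (2 * S.γ * Bs) :=
          mul_le_mul (mul_le_mul_of_nonneg_left h2 (by positivity)) hδb hδ0 (by positivity)
      _ ≤ ρ * (P.ε * P.β₀ * Bs) := by
          rw [hρ, Params.rho, Params.β₀]
          have e1 : 100 / P.ε ^ 6 * (2 / P.ε) * (2 * S.γ * Bs)
              = 400 * (S.γ * Bs / P.ε ^ 7) := by field_simp; ring
          have e2 : 1000000 * S.γ / P.ε ^ 10 * (P.ε * (P.ε ^ 2 / 400) * Bs)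
              = 2500 * (S.γ * Bs / P.ε ^ 7) := by field_simp; ring
          rw [e1, e2]
          have : 0 ≤ S.γ * Bs / P.ε ^ 7 := by positivity
          linarith
      _ ≤ _ := mul_le_mul_of_nonneg_left (mul_le_mul_of_nonneg_right hφlow hBs0) hρ0
  rw [(C.sp_facts i ω hl hσ hg).2.2.2]
  have hgD := mul_le_mul_of_nonneg_left hgain (hD ω).1
  have hbD : D ω * (100 / P.ε ^ 6 * (1 + B) * δ) ≤ ρ * (Two.phi (st.sig i ω) * Bs) :=
    (mul_le_of_le_one_left (by positivity) (hD ω).2).trans hband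
  simp only [ha', hδ, hBs, hBdef] at hgD hbD hsum ⊢
  linarith

end Ctx

variable (T P x)

theorem lossSpec : T.LossSpec P x := fun _ _ _ C i h hsupp ω => C.loss_le i h hsupp ω

theorem gainSpec : T.GainSpec P x := fun _ _ _ C i _ hD hD1 =>
  ⟨fun ω => C.gain_ge i hD hD1 ω, fun s ω => C.beta_dom i (fun y => (hD y).1) hD1 s ω⟩

end SMasa

end Vale.Agent.P078.T3
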